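import Vale.Agent.P183.H411.Contains

/-!
Extensions of representable lattices whose fibres are intervals `[H, G]` of finite groups, glued
over tree-like elements or along cuts.
-/

namespace Vale.Agent.Results.P183.TightOver

open Vale.Agent.P183 Vale.Agent.P183.H330D Vale.Agent.P183.H330M Vale.Agent.P183.H238
open Vale.Agent.P183.H411

theorem result :
    -- (1) the extension theorem, for the given or for the dual orders
    (∀ (L K : Type) [Lattice L] [Finite L] [Lattice K] (f : LatticeHom L K),
      Function.Surjective f → Representable K →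
      TightOver f ∨ TightOver (LatticeHom.dual f) → Representable L) ∧
    -- (2) tree-like quotients
    (∀ (L K : Type) [Lattice L] [Finite L] [Lattice K] (f : LatticeHom L K),
      Function.Surjective f → Representable K → (∀ t : K, TreeAt t) →
      (∀ t, DistribOver f t ∨ (IsGroupInterval {l : L // f l = t} ∧
        (CompatTight f t ∨ ∃ r, Linked f r t))) → Representable L) ∧
    -- (3) arbitrary quotients, fibres glued along cuts
    (∀ (L K I : Type) [Lattice L] [Finite L] [Lattice K] (f : LatticeHom L K) (u d : I → K → L),
      Function.Surjective f → Representable K →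
      (∀ t, IsGroupInterval {l : L // f l = t}) →
      (∀ i q, f (u i q) = q) → (∀ i q, f (d i q) = q) → (∀ i q, ¬ d i q ≤ u i q) →
      (∀ i p q z, p ≤ q → f z = p → (z ≤ u i q ↔ z ≤ u i p)) →
      (∀ x y, f x < f y → (x ≤ y ↔ ∀ i, x ≤ u i (f x) ∨ d i (f y) ≤ y)) → Representable L) :=
  ⟨fun _ _ _ _ _ f hf hK h => h.elim (ext_over f hf hK) (ext_over_dual f hf hK),
    fun _ _ _ _ _ f hf hK hT h => ext_over f hf hK (over_of_tree hf hT h),
    fun _ _ _ _ _ _ f u d hf hK h1 hu hd hdu hc hle =>
      ext_over f hf hK (over_of_cuts u d h1 hu hd hdu hc hle)⟩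

end Vale.Agent.Results.P183.TightOver
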